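import Vale.Agent.P015.Path

namespace Vale.Agent.Results.P015.Sparse

open ComplexConjugate Filter Vale.Agent.P015

theorem result : ∀ D : ℝ, 0 < D → ∃ c : ℝ, 0 < c ∧ ∃ L₀ : ℝ,
    (∀ R ≥ L₀, ∀ a : ℂ,
      {z : {z : GaussianInt // Irreducible z} | ‖(z.1 : ℂ) - a‖ ≤ R ∧
        (((moatGraph D).connectedComponentMk z).supp.Infinite ∨
          c * Real.log R / Real.log (Real.log R) ≤
            (((moatGraph D).connectedComponentMk z).supp.ncard : ℝ))}.Finite ∧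
      ({z : {z : GaussianInt // Irreducible z} | ‖(z.1 : ℂ) - a‖ ≤ R ∧
        (((moatGraph D).connectedComponentMk z).supp.Infinite ∨
          c * Real.log R / Real.log (Real.log R) ≤
            (((moatGraph D).connectedComponentMk z).supp.ncard : ℝ))}.ncard : ℝ) ≤
      R ^ (2 - c / Real.log (Real.log R))) ∧
    (∀ L ≥ L₀, ∀ q e : ℂ, ‖e‖ = 1 →
      ∀ z w : {z : GaussianInt // Irreducible z}, ∀ p : (moatGraph D).Walk z w,
      (∀ x ∈ p.support, |(((x.1 : ℂ) - q) * conj e).im| ≤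
        L ^ (c / Real.log (Real.log L))) → ‖(z.1 : ℂ) - w.1‖ < L) ∧
    (∀ f : ℕ → {z : GaussianInt // Irreducible z}, Function.Injective f →
      (∀ n, (moatGraph D).Adj (f n) (f (n + 1))) → ∀ q e : ℂ, ‖e‖ = 1 →
      ∃ᶠ n in atTop, ‖((f n).1 : ℂ)‖ ^ (c / Real.log (Real.log ‖((f n).1 : ℂ)‖)) <
        |((((f n).1 : ℂ) - q) * conj e).im|) :=
  by
  intro D hD
  obtain ⟨N, hN⟩ : ∃ N : ℕ, N = ⌈D⌉₊ := ⟨_, rfl⟩
  have hDN : D ≤ N := by rw [hN]; exact Nat.le_ceil D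
  have hN1 : 1 ≤ N := by rw [hN]; exact Nat.one_le_iff_ne_zero.2 (Nat.ceil_pos.2 hD).ne'
  obtain ⟨C, k0, hk0, hC, hrow⟩ := row_bound N
  have hrow' : ∀ k ≥ k0, RowProp N C k := fun k hk ↦ hrow k hk
  obtain ⟨c, hc⟩ : ∃ c : ℝ, c = 1 / (8 * (2 * C + 1)) := ⟨_, rfl⟩
  have hC1 : (1 : ℝ) ≤ C := by exact_mod_cast hC
  have hcpos : 0 < c := by rw [hc]; positivity
  have hc1 : c * (8 * (2 * C + 1)) = 1 := by rw [hc]; field_simp
  obtain ⟨L1, hL11, hL1⟩ := part_disc N C k0 hrow' c hcpos (by nlinarith)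
  obtain ⟨L2, hL21, hL2⟩ := part_tube N hN1 C k0 hC hrow' c hcpos (by nlinarith)
  obtain ⟨L3, hL31, hL3⟩ := part_tube N hN1 C k0 hC hrow' (2 * c) (by positivity) (by nlinarith)
  refine ⟨c, hcpos, max L1 L2, ?_, ?_, ?_⟩
  · intro R hR a
    refine ⟨(finite_disc a R).subset (fun z hz ↦ hz.1), ?_⟩
    exact hL1 R ((le_max_left _ _).trans hR) D hDN a
  · intro L hL q e he z w p hp
    exact hL2 L ((le_max_right _ _).trans hL) D hDN q e he z w p hp
  · intro f hinj hf q e he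
    exact part_path N c hcpos D hDN
      ⟨L3, hL31, fun L hL q e he z w p hp ↦ hL3 L hL D hDN q e he z w p hp⟩ f hinj hf q e he

end Vale.Agent.Results.P015.Sparse
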